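import Mathlib.Analysis.VonNeumannAlgebra.Basic
import Mathlib.Analysis.InnerProductSpace.Positive
import Mathlib.Algebra.Star.StarProjection
import Mathlib.RingTheory.Idempotents
import Mathlib.Data.ENat.Lattice

/-!
The paving number of Popa and Vaes and the two invariants which determine its growth.
-/

namespace Vale.Agent.N078H

variable {H : Type*} [NormedAddCommGroup H] [InnerProductSpace ℂ H] [CompleteSpace H]
  (M : VonNeumannAlgebra H) (A : StarSubalgebra ℂ (H →L[ℂ] H))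

/-- `A` is a maximal abelian self-adjoint subalgebra of `M`. -/
def IsMASA : Prop :=
  Maximal (fun B : StarSubalgebra ℂ (H →L[ℂ] H) => B ≤ M.toStarSubalgebra ∧ IsMulCommutative B) A

/-- `x` is `(ε, r)` so-pavable over `A` in `M`. -/
def SOPavable (x : H →L[ℂ] H) (ε : ℝ) (r : ℕ) : Prop :=
  ∀ (F : Finset H) (δ : ℝ), 0 < δ → ∃ (p : Fin r → (H →L[ℂ] H)) (a q : H →L[ℂ] H),
    CompleteOrthogonalIdempotents p ∧ (∀ i, p i ∈ A ∧ IsSelfAdjoint (p i)) ∧
      a ∈ A ∧ IsSelfAdjoint a ∧ ‖a‖ ≤ ‖x‖ ∧ q ∈ M ∧ IsStarProjection q ∧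
      (∀ ξ ∈ F, ‖(1 - q) ξ‖ < δ) ∧ ‖q * (∑ i, p i * x * p i - a) * q‖ ≤ ε * ‖x‖

/-- `n_{A ⊆ M}(ε)`: the least `r ≥ 1` such that every self-adjoint `x ∈ M` is `(ε, r)` so-pavable
(`⊤` if there is none). -/
noncomputable def pavingNumber (ε : ℝ) : ℕ∞ :=
  sInf (Nat.cast '' {r : ℕ | 1 ≤ r ∧ ∀ x ∈ M, IsSelfAdjoint x → SOPavable M A x ε r})

/-- The projection `p` of `A` is `E 1` for a normal positive `A`-bimodule map `E : M → A`; that is,
`A p` is the range of a normal conditional expectation of `p M p`. -/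
def IsExpected (p : H →L[ℂ] H) : Prop :=
  p ∈ A ∧ IsStarProjection p ∧ ∃ E : (H →L[ℂ] H) →ₗ[ℂ] (H →L[ℂ] H), E 1 = p ∧
    (∀ x ∈ M, E x ∈ A ∧ (0 ≤ x → 0 ≤ E x) ∧ ∀ a ∈ A, ∀ b ∈ A, E (a * x * b) = a * E x * b) ∧
    ∀ D : Set (H →L[ℂ] H), D.Nonempty → DirectedOn (· ≤ ·) D → D ⊆ M →
      ∀ y, IsLUB D y → IsLUB (E '' D) (E y)

/-- `p` is a sum of `N` mutually orthogonal projections `f` of `A` which are abelian in `M`
(`f M f` is commutative). -/
def IsAbelianSum (p : H →L[ℂ] H) (N : ℕ) : Prop :=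
  ∃ f : Fin N → (H →L[ℂ] H), OrthogonalIdempotents f ∧ ∑ i, f i = p ∧
    ∀ i, f i ∈ A ∧ IsSelfAdjoint (f i) ∧
      ∀ x ∈ M, ∀ y ∈ M, Commute (f i * x * f i) (f i * y * f i)

/-- The least `N` such that every expected projection is a sum of `N` orthogonal abelian
projections of `A` (`⊤` if there is none). -/
noncomputable def degree : ℕ∞ :=
  sInf (Nat.cast '' {N : ℕ | ∀ p, IsExpected M A p → IsAbelianSum M A p N})

end Vale.Agent.N078H
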