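import Vale.Agent.N078H.Main

/-!
All values of the invariants occur.
-/

set_option linter.all false

namespace Vale.Agent.N078H

open Filter Topology Vale.Agent.P078
open scoped InnerProductSpace

universe u v

variable {H : Type u} [NormedAddCommGroup H] [InnerProductSpace ℂ H] [CompleteSpace H]
  {ι : Type v} (b : HilbertBasis ι ℂ H)

theorem diag_card {N : ℕ} (h : SumAbelian (XD.comm ∅) (XD.AA b).toStarSubalgebra 1 N) :
    ENat.card ι ≤ N := by
  classical
  obtain ⟨f, h1, -, h3⟩ := h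
  have h4 : ∀ j, ∃ i, f i (b j) = b j := by
    intro j
    by_contra hc
    push Not at hc
    have h5 : ∀ i, f i (b j) = 0 := by
      intro i
      have e1 := XD.diag_form (h1 i).1 j
      have e2 := proj_apply_apply (h1 i).2.1 (b j)
      by_contra hne
      rw [e1, map_smul] at e2
      have e3 : (⟪b j, f i (b j)⟫_ℂ) ≠ 0 := fun h0 => hne (by rw [e1, h0, zero_smul])
      exact hc i (smul_right_injective H e3 e2)
    have h6 : (∑ i, f i) (b j) = 0 := by
      rw [_root_.sum_apply]
      exact Finset.sum_eq_zero fun i _ => h5 i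
    rw [h3] at h6
    exact b.orthonormal.ne_zero j h6
  choose c hc using h4
  have h7 : Function.Injective c := by
    intro j k hjk
    by_contra hne
    have h8 := XD.mem_AA.1 ((h1 (c j)).2.2 (InnerProductSpace.rankOne ℂ (b j) (b k))
      (XD.mem_MM _)) j k hne
    change ⟪b j, f (c j) (InnerProductSpace.rankOne ℂ (b j) (b k) (f (c j) (b k)))⟫_ℂ = 0 at h8
    rw [hjk, hc k, InnerProductSpace.rankOne_apply, inner_self_one (b.orthonormal.1 k), one_smul,
      ← hjk, hc j, inner_self_one (b.orthonormal.1 j)] at h8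
    exact one_ne_zero h8
  simpa using ENat.card_le_card_of_injective h7

theorem diag_abProj (l : ι) :
    AbProj (XD.comm ∅) (XD.AA b) (InnerProductSpace.rankOne ℂ (b l) (b l)) :=
  ⟨XD.rankOne_mem_AA l, InnerProductSpace.isStarProjection_rankOne_self (b.orthonormal.1 l),
    fun x _ => by
      rw [rankOne_conj]
      exact (XD.AA b).toStarSubalgebra.smul_mem (XD.rankOne_mem_AA l) _⟩

theorem diag_example : IsExpected (XD.comm ∅) (XD.AA b).toStarSubalgebra 1 ∧
    degree (XD.comm ∅) (XD.AA b).toStarSubalgebra = ENat.card ι := by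
  classical
  obtain ⟨z, -, -, -, -, hab, h1, h⟩ := exists_part (XD.isMASA (b := b))
  have hb : ∀ l, InnerProductSpace.rankOne ℂ (b l) (b l) (b l) = b l := fun l => by
    rw [InnerProductSpace.rankOne_apply, inner_self_one (b.orthonormal.1 l), one_smul]
  obtain rfl : z = 1 := by
    refine XD.ext_b (b := b) fun j => ?_
    have := DFunLike.congr_fun (hab _ (diag_abProj b j)) (b j)
    change z (InnerProductSpace.rankOne ℂ (b j) (b j) (b j)) = _ at this
    rw [hb] at this
    exact this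
  refine ⟨h1.2 rfl, le_antisymm ?_ ?_⟩
  · cases finite_or_infinite ι with
    | inr _ => simp
    | inl _ =>
      obtain ⟨n, ⟨σ⟩⟩ := Finite.exists_equiv_fin ι
      have e : ENat.card ι = n := by simpa using ENat.card_congr σ
      rw [e]
      refine (h n).2 ⟨fun i => InnerProductSpace.rankOne ℂ (b (σ.symm i)) (b (σ.symm i)),
        fun i => diag_abProj b _, fun i j hij => ?_, XD.ext_b (b := b) fun j => ?_⟩
      · rw [rankOne_mul_rankOne, b.orthonormal.2 fun e => hij (σ.symm.injective e), zero_smul]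
      · rw [_root_.sum_apply, Finset.sum_eq_single (σ j), σ.symm_apply_apply, hb]
        · rfl
        · intro i _ hi
          rw [InnerProductSpace.rankOne_apply, b.orthonormal.2 fun e => hi (by
            rw [← e, σ.apply_symm_apply]), zero_smul]
        · exact fun hi => absurd (Finset.mem_univ _) hi
  · by_cases hd : degree (XD.comm (∅ : Set (H →L[ℂ] H))) (XD.AA b).toStarSubalgebra = ⊤
    · rw [hd]
      exact le_top
    · obtain ⟨d, hd⟩ := ENat.ne_top_iff_exists.1 hd
      rw [← hd]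
      exact diag_card b ((h d).1 hd.ge)

include b in
/-- a unitary without eigenvectors -/
theorem exists_shift [Infinite ι] : ∃ U : H →L[ℂ] H, star U * U = 1 ∧ U * star U = 1 ∧
    ∀ (v : H) (c : ℂ), U v = c • v → v = 0 := by
  obtain ⟨e⟩ : Nonempty (ι ≃ ι × ℤ) := by
    refine Cardinal.eq.1 ?_
    simp [Cardinal.mul_aleph0_eq (Cardinal.aleph0_le_mk ι)]
  let σ : ι ≃ ι := e.trans ((Equiv.prodCongr (Equiv.refl ι) (Equiv.addRight (1 : ℤ))).trans e.symm)
  have hσ : ∀ i n, σ (e.symm (i, n)) = e.symm (i, n + 1) := fun i n => by simp [σ]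
  let b' : HilbertBasis ι ℂ H := HilbertBasis.mk (b.orthonormal.comp σ σ.injective) (by
    rw [σ.surjective.range_comp]
    exact b.dense_span.ge)
  have hb' : ∀ i, b' i = b (σ i) := fun i => congrFun (HilbertBasis.coe_mk _ _) i
  let W : H ≃ₗᵢ[ℂ] H := b.repr.trans b'.repr.symm
  have hW : ∀ i v, ⟪b (σ i), W v⟫_ℂ = ⟪b i, v⟫_ℂ := by
    intro i v
    rw [← hb', ← b'.repr_apply_apply, ← b.repr_apply_apply]
    simp [W]
  let U : unitary (H →L[ℂ] H) := Unitary.linearIsometryEquiv.symm W
  refine ⟨U, U.2.1, U.2.2, fun v c hv => ?_⟩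
  change W v = c • v at hv
  by_contra hv0
  have hc : ‖c‖ = 1 := by
    have h1 := W.norm_map v
    rw [hv, norm_smul] at h1
    exact mul_right_cancel₀ (norm_ne_zero_iff.2 hv0) (by rw [h1, one_mul])
  have h2 : ∀ i, ‖⟪b (σ i), v⟫_ℂ‖ = ‖⟪b i, v⟫_ℂ‖ := by
    intro i
    rw [← hW i v, hv, inner_smul_right, norm_mul, hc, one_mul]
  have h3 : ∀ i m, ⟪b (e.symm (i, m)), v⟫_ℂ = 0 := by
    intro i m
    have h4 : ∀ n : ℕ, ‖⟪b (e.symm (i, m + n)), v⟫_ℂ‖ = ‖⟪b (e.symm (i, m)), v⟫_ℂ‖ := by
      intro n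
      induction n with
      | zero => simp
      | succ n ih => rw [Nat.cast_succ, ← add_assoc, ← hσ, h2, ih]
    have h5 : Function.Injective fun n : ℕ => e.symm (i, m + n) := by
      intro n n' h
      have := (Prod.mk.inj (e.symm.injective h)).2
      omega
    have h6 := ((b.orthonormal.comp _ h5).inner_products_summable (x := v)).tendsto_atTop_zero
    simp only [Function.comp, h4] at h6
    have h7 := tendsto_nhds_unique h6 tendsto_const_nhds
    exact norm_eq_zero.1 (pow_eq_zero_iff two_ne_zero |>.1 h7.symm)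
  refine hv0 (b.repr.injective (lp.ext (funext fun j => ?_)))
  rw [b.repr_apply_apply, map_zero, ← e.symm_apply_apply j]
  exact h3 _ _

include b in
theorem diffuse_example [Infinite ι] (hQ : QuadAll H) :
    ∃ A : StarSubalgebra ℂ (H →L[ℂ] H), IsMASA (XD.comm ∅) A ∧
      ¬ IsExpected (XD.comm ∅) A 1 ∧ degree (XD.comm ∅) A = 0 := by
  obtain ⟨U, hU1, hU2, hU⟩ := exists_shift b
  have c3 := StarAlgebra.isMulCommutative_adjoin ℂ (s := {U})
    (by rintro _ rfl _ rfl; rfl) (by rintro _ rfl _ rfl; rw [hU1, hU2])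
  obtain ⟨A0, hle, hmax⟩ := P078L.exists_masa (M := (XD.comm (∅ : Set (H →L[ℂ] H))).toStarSubalgebra)
    (B := (StarAlgebra.adjoin ℂ {U}).toNonUnitalStarSubalgebra)
    ⟨fun x _ => XD.mem_MM x, comm_iff.1 c3⟩
  let A : VonNeumannAlgebra H := P078L.vn (XD.comm ∅).centralizer_centralizer hmax
  have hA : SO.IsMASA A (XD.comm ∅) :=
    ⟨hmax.prop.1, hmax.prop.2, fun _ hx hc => P078L.mem_of_comm hmax hx hc⟩
  have hUA : U ∈ A := hle (StarAlgebra.subset_adjoin ℂ {U} rfl)
  have hat : ∀ v : H, ‖v‖ = 1 → InnerProductSpace.rankOne ℂ v v ∉ A := by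
    intro v hv h
    have h1 := DFunLike.congr_fun (hA.2.1 _ hUA _ h) v
    change U (InnerProductSpace.rankOne ℂ v v v) = InnerProductSpace.rankOne ℂ v v (U v) at h1
    rw [InnerProductSpace.rankOne_apply, InnerProductSpace.rankOne_apply, inner_self_one hv,
      one_smul] at h1
    rw [hU v _ h1, norm_zero] at hv
    exact zero_ne_one hv
  have hA' := isMASA_of_so hA
  obtain ⟨z, -, -, -, -, -, h1, h⟩ := exists_part hA
  have hd : degree (XD.comm ∅) A.toStarSubalgebra ≠ ⊤ := by
    intro hd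
    have h2 := infinite_degree hQ hA' hd (ε := 1 / 4) (by norm_num)
    obtain ⟨z', g1, g2, g3, g4, -⟩ := exists_split XD.mem_MM hA.toStar (N := 0) (by
      rw [Nat.cast_zero, Set.encard_eq_zero, Set.eq_empty_iff_forall_notMem]
      rintro _ ⟨k1, v, hv, rfl⟩
      exact hat v hv k1)
    have h3 := joint_le_of_small hA g1 g2 g4 g3 (ε := 1 / 4) (by norm_num) 1
    rw [WG.joint_one, SO.pavingNumber_eq, ← num_eq] at h3
    have h4 := h2.trans h3
    rw [Nat.cast_le] at h4
    norm_num at h4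
  obtain ⟨d, hd⟩ := ENat.ne_top_iff_exists.1 hd
  obtain ⟨f, f1, -, f3⟩ := (h d).1 hd.ge
  obtain rfl : z = 0 := by
    rw [← f3]
    refine Finset.sum_eq_zero fun i _ => ?_
    by_contra hne
    obtain ⟨v, hfv, hv⟩ := exists_unit_of_proj (f1 i).2.1 hne
    refine hat v hv ?_
    have h5 := (f1 i).2.2 (InnerProductSpace.rankOne ℂ v v) (XD.mem_MM _)
    have h6 : f i * (InnerProductSpace.rankOne ℂ v v : H →L[ℂ] H) * f i =
        InnerProductSpace.rankOne ℂ v v := by
      ext ζ
      change f i (InnerProductSpace.rankOne ℂ v v (f i ζ)) = InnerProductSpace.rankOne ℂ v v ζ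
      rw [InnerProductSpace.rankOne_apply, InnerProductSpace.rankOne_apply, map_smul, hfv,
        ← proj_inner (f1 i).2.1, hfv]
    rwa [h6] at h5
  refine ⟨A.toStarSubalgebra, hA', fun he => ?_, le_antisymm ?_ zero_le⟩
  · obtain ⟨j⟩ : Nonempty ι := inferInstance
    exact b.orthonormal.ne_zero j (DFunLike.congr_fun (h1.1 he) (b j)).symm
  · exact (h 0).2 ⟨Fin.elim0, fun i => i.elim0, fun i => i.elim0, rfl⟩

include b in
theorem examples (hQ : QuadAll H) : ∃ M : VonNeumannAlgebra H, (∀ x, x ∈ M) ∧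
    (∃ A, IsMASA M A ∧ IsExpected M A 1 ∧ degree M A = ENat.card ι) ∧
    (Infinite ι → ∃ A, IsMASA M A ∧ ¬ IsExpected M A 1 ∧ degree M A = 0) :=
  ⟨XD.comm ∅, XD.mem_MM, ⟨_, isMASA_of_so XD.isMASA, diag_example b⟩,
    fun _ => diffuse_example b hQ⟩

end Vale.Agent.N078H
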