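import Vale.Agent.P078.H598.Rate23

/-!
Lower bounds for the so-paving number when the expected part is a finite sum of abelian
projections.
-/

set_option linter.all false

namespace Vale.Agent.N078H

open Vale.Agent.P078 Filter Topology
open scoped InnerProductSpace

variable {H : Type*} [NormedAddCommGroup H] [InnerProductSpace ℂ H] [CompleteSpace H]
variable {M A : VonNeumannAlgebra H}

/-- abelian projections lie under the expected part -/
theorem abProj_le (hA : SO.IsMASA A M) {z f : H →L[ℂ] H} (hf : AbProj M A f)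
    (hzp : IsStarProjection z)
    (h0 : ∀ ψ : (H →L[ℂ] H) →ₗ[ℂ] ℂ, CentralNormal M A.toStarSubalgebra ψ → ψ (1 - z) = 0) :
    z * f = f := by
  ext η
  obtain ⟨ζ, hζ⟩ : ∃ ζ, ζ = f η := ⟨_, rfl⟩
  have hfζ : f ζ = ζ := by rw [hζ]; exact proj_apply_apply hf.2.1 η
  let ψ : (H →L[ℂ] H) →ₗ[ℂ] ℂ :=
    { toFun := fun x => ⟪ζ, x ζ⟫_ℂ
      map_add' := fun x y => by simp [inner_add_right]
      map_smul' := fun c x => by simp [inner_smul_right] }
  have hc : ∀ x : H →L[ℂ] H, ψ (f * x * f) = ψ x := by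
    intro x
    change ⟪ζ, f (x (f ζ))⟫_ℂ = ⟪ζ, x ζ⟫_ℂ
    rw [← proj_inner hf.2.1, hfζ]
  have hψ : CentralNormal M A.toStarSubalgebra ψ := by
    refine ⟨fun x _ hx => ?_, fun e he _ x hx => ?_, fun R x l _ _ h => h ζ ζ⟩
    · have h1 := ((ContinuousLinearMap.nonneg_iff_isPositive x).1 hx).inner_nonneg_right ζ
      exact ⟨(Complex.nonneg_iff.1 h1).1, (Complex.nonneg_iff.1 h1).2.symm⟩
    · have h1 : e * f = f * e := hA.2.1 _ he _ hf.1
      have h2 : e * (f * x * f) = f * x * f * e := hA.2.1 _ he _ (hf.2.2 x hx)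
      rw [← hc (e * x), ← hc (x * e)]
      congr 1
      calc f * (e * x) * f = e * (f * x * f) := by rw [← mul_assoc, ← h1]; simp only [mul_assoc]
        _ = f * x * (f * e) := by rw [h2, mul_assoc]
        _ = f * (x * e) * f := by rw [← h1]; simp only [mul_assoc]
  have h1 : (⟪ζ, (1 - z) ζ⟫_ℂ).re = 0 := congrArg Complex.re (h0 ψ hψ)
  rw [proj_inner_self hzp.one_sub] at h1
  have h2 : (1 - z) ζ = 0 := norm_eq_zero.1 (pow_eq_zero_iff two_ne_zero |>.1 h1)
  change z (f η) = f η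
  rw [← hζ]
  exact (sub_eq_zero.1 h2).symm

theorem sum_succ {z : H →L[ℂ] H} {N : ℕ} (h : SumAbelian M A.toStarSubalgebra z N) :
    SumAbelian M A.toStarSubalgebra z (N + 1) := by
  obtain ⟨f, h1, h2, h3⟩ := h
  refine ⟨Fin.cons 0 f, fun i => ?_, fun i j hij => ?_, ?_⟩
  · refine Fin.cases ?_ (fun i => ?_) i
    · exact ⟨zero_mem _, IsStarProjection.zero _, fun x _ => by simpa using zero_mem _⟩
    · exact h1 i
  · revert hij
    refine Fin.cases ?_ (fun i => ?_) i <;> refine Fin.cases ?_ (fun j => ?_) j <;> intro hij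
    · simp
    · simp
    · simp
    · exact h2 i j fun e => hij (by rw [e])
  · simp [Fin.sum_univ_succ, h3]

theorem sum_mono {z : H →L[ℂ] H} {N N' : ℕ} (h : SumAbelian M A.toStarSubalgebra z N)
    (hN : N ≤ N') : SumAbelian M A.toStarSubalgebra z N' := by
  induction hN with
  | refl => exact h
  | step _ ih => exact sum_succ ih

theorem sum_mul_eq {N : ℕ} {f : Fin N → (H →L[ℂ] H)} (hf : ∀ i, IsStarProjection (f i))
    (ho : ∀ i j, i ≠ j → f i * f j = 0) (i : Fin N) : f i * ∑ j, f j = f i := by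
  rw [Finset.mul_sum, Finset.sum_eq_single i]
  · exact (hf i).isIdempotentElem.eq
  · exact fun j _ hj => ho i j hj.symm
  · exact fun hi => absurd (Finset.mem_univ i) hi

theorem sum_of_le (hA : SO.IsMASA A M) {z p : H →L[ℂ] H} {N : ℕ}
    (h : SumAbelian M A.toStarSubalgebra z N) (hp : p ∈ A) (hpp : IsStarProjection p)
    (hzp : z * p = p) : SumAbelian M A.toStarSubalgebra p N := by
  obtain ⟨f, h1, h2, h3⟩ := h
  refine ⟨fun i => f i * p, fun i => ?_, fun i j hij => ?_, ?_⟩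
  · exact AbProj.of_le hA (h1 i) (mul_mem (h1 i).1 hp)
      (mul_proj_of_comm (h1 i).2.1 hpp (hA.2.1 _ (h1 i).1 _ hp))
      (by rw [← mul_assoc, (h1 i).2.1.isIdempotentElem.eq])
  · rw [mul_assoc, ← mul_assoc p, hA.2.1 _ hp _ (h1 j).1, ← mul_assoc, ← mul_assoc, h2 i j hij,
      zero_mul, zero_mul]
  · rw [← Finset.sum_mul, h3, hzp]

/-- normalizing matrix units under a finite sum of abelian projections -/
theorem exists_frame (hA : SO.IsMASA A M) {z : H →L[ℂ] H} (hz : z ∈ A) (hzp : IsStarProjection z)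
    {d n : ℕ} (hd : SumAbelian M A.toStarSubalgebra z d)
    (hn : ¬ SumAbelian M A.toStarSubalgebra z n) :
    ∃ (g : H →L[ℂ] H) (e v : Fin n → (H →L[ℂ] H)), AbProj M A g ∧ g ≠ 0 ∧ z * g = g ∧
      (∀ i, AbProj M A (e i) ∧ z * e i = e i) ∧ (∀ i j, i ≠ j → e i * e j = 0) ∧
      (∀ i, e i * g = 0) ∧ ∀ i, v i ∈ M ∧ e i * v i = v i ∧ star (v i) * v i = g := by
  classical
  obtain ⟨e, he, ho, hb⟩ := exists_family (M := M) hA hz hzp n
  obtain ⟨s, hs⟩ : ∃ s, s = ∑ i, e i := ⟨_, rfl⟩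
  have hsA : s ∈ A := by rw [hs]; exact sum_mem fun i _ => (he i).1.1
  have hsp : IsStarProjection s := by
    rw [hs]; exact isStarProjection_sum (fun i => (he i).1.2.1) ho
  have hzs : z * s = s := by
    rw [hs, Finset.mul_sum]
    exact Finset.sum_congr rfl fun i _ => (he i).2
  have hzz : z * z = z := hzp.isIdempotentElem.eq
  have hes : ∀ i, e i * s = e i := fun i => by
    rw [hs]; exact sum_mul_eq (fun i => (he i).1.2.1) ho i
  have hez : ∀ i, e i * z = e i := fun i => by rw [hA.2.1 _ (he i).1.1 _ hz, (he i).2]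
  have hwp : IsStarProjection (z - s) := sub_proj_of_le hzp hsp hzs
  have hzw : z * (z - s) = z - s := by rw [mul_sub, hzz, hzs]
  have hw0 : z - s ≠ 0 := fun h0 => hn
    ⟨e, fun i => (he i).1, ho, by rw [← hs]; exact (sub_eq_zero.1 h0).symm⟩
  obtain ⟨f, h1, h2, h3⟩ := sum_of_le hA hd (sub_mem hz hsA) hwp hzw
  obtain ⟨i0, hg0⟩ : ∃ i, f i ≠ 0 := by
    by_contra hcon
    push Not at hcon
    exact hw0 (by rw [← h3]; exact Finset.sum_eq_zero fun i _ => hcon i)
  have hwg : (z - s) * f i0 = f i0 := by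
    rw [hA.2.1 _ (sub_mem hz hsA) _ (h1 i0).1, ← h3]
    exact sum_mul_eq (fun i => (h1 i).2.1) h2 i0
  have hzg : z * f i0 = f i0 := by rw [← hwg, ← mul_assoc, hzw]
  have heg : ∀ i, e i * f i0 = 0 := fun i => by
    rw [← hwg, ← mul_assoc, mul_sub, hez, hes, sub_self, zero_mul]
  obtain ⟨g', hg', hg'0, hgg', v, hv⟩ := exists_units hA he hb (h1 i0) hzg heg hg0 Finset.univ
  exact ⟨g', e, v, hg', hg'0, by rw [← hgg', ← mul_assoc, hzg], he, ho,
    fun i => by rw [← hgg', ← mul_assoc, heg, zero_mul], fun i =>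
      ⟨(hv i (Finset.mem_univ i)).1, (hv i (Finset.mem_univ i)).2.2.2,
        (hv i (Finset.mem_univ i)).2.1⟩⟩

theorem unit_mul {g v : H →L[ℂ] H} (hgp : IsStarProjection g) (h3 : star v * v = g) :
    v * g = v := by
  have hgg : g * g = g := hgp.isIdempotentElem.eq
  have h2 : star (v * g - v) * (v * g - v) = 0 := by
    rw [star_sub, star_mul, hgp.isSelfAdjoint.star_eq, sub_mul, mul_sub, mul_sub]
    have e1 : g * star v * (v * g) = g := by
      rw [mul_assoc, ← mul_assoc (star v), h3, hgg, hgg]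
    have e2 : g * star v * v = g := by rw [mul_assoc, h3, hgg]
    have e3 : star v * (v * g) = g := by rw [← mul_assoc, h3, hgg]
    rw [e1, e2, e3, h3, sub_self]
  exact sub_eq_zero.1 ((CStarRing.star_mul_self_eq_zero_iff _).1 h2)

theorem unit_norm {g v : H →L[ℂ] H} (hgp : IsStarProjection g) (h3 : star v * v = g) :
    ‖v‖ ≤ 1 := by
  have h2 : ‖v‖ * ‖v‖ ≤ 1 := by
    rw [← CStarRing.norm_star_mul_self, h3]
    exact proj_opNorm_le hgp
  nlinarith only [h2]

/-- the quadratic inequality for one power of two -/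
theorem quad_fin (hA : SO.IsMASA A M) {z : H →L[ℂ] H} (hz : z ∈ A) (hzp : IsStarProjection z)
    {E : (H →L[ℂ] H) →ₗ[ℂ] (H →L[ℂ] H)} (hE : IsNormalExpectation M A.toStarSubalgebra z E)
    {d m : ℕ} (hd : SumAbelian M A.toStarSubalgebra z d)
    (hn : ¬ SumAbelian M A.toStarSubalgebra z (2 ^ m)) {ε : ℝ} (hε : 0 ≤ ε) {r : ℕ} (hr : 0 < r)
    (hpave : ∀ x ∈ M, IsSelfAdjoint x → SOPavable M A.toStarSubalgebra 1 x ε r) :
    1 / (r : ℝ) ≤ ε ^ 2 + 1 / 2 ^ m := by
  classical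
  have hA' := SO.IsMASA.toStar hA
  obtain ⟨g, e, v, hg, hg0, hzg, he, ho, -, hv⟩ := exists_frame hA hz hzp hd hn
  have hvg : ∀ l, v l * g = v l := fun l => unit_mul hg.2.1 (hv l).2.2
  have hsv : ∀ i, star (v i) * e i = star (v i) := by
    intro i
    have := congrArg star (hv i).2.1
    rwa [star_mul, (he i).1.2.1.isSelfAdjoint.star_eq] at this
  have hgv : ∀ i, g * star (v i) = star (v i) := by
    intro i
    have := congrArg star (hvg i)
    rwa [star_mul, hg.2.1.isSelfAdjoint.star_eq] at this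
  have hvvv : ∀ l, v l * star (v l) * v l = v l := fun l => by
    rw [mul_assoc, (hv l).2.2, hvg]
  obtain ⟨h', hh1, hh2, hh3⟩ := exists_walsh m
  let Fr : HFrame M A.toStarSubalgebra 1 g (Fin (2 ^ m)) :=
    { e := fun l => v l * star (v l)
      v := v
      h := h'
      eA := fun l => by
        have := (he l).1.conj_mem (hv l).1 (one_mem M) (hv l).2.1
        rwa [mul_one] at this
      eP := fun l => ⟨by
        change v l * star (v l) * (v l * star (v l)) = v l * star (v l)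
        rw [← mul_assoc, hvvv], IsSelfAdjoint.mul_star_self _⟩
      eo := fun i j hij => by
        rw [mul_assoc, ← mul_assoc (star (v i)), ← hsv i, ← (hv j).2.1, mul_assoc (star (v i)),
          ← mul_assoc (e i), ho i j hij, zero_mul, mul_zero, zero_mul, mul_zero]
      ee := fun l => one_mul _
      gM := hA.1 _ hg.1
      gP := hg.2.1
      eg := one_mul _
      vM := fun l => (hv l).1
      ev := hvvv
      vg := hvg
      vn := fun l => unit_norm hg.2.1 (hv l).2.2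
      hs := hh1
      h2 := fun i j => by rw [hh2, Fintype.card_fin]; push_cast; rfl
      ho := hh3 }
  obtain ⟨ψ, hψ, hψg⟩ : ∃ ψ : (H →L[ℂ] H) →ₗ[ℂ] ℂ, CentralNormal M A.toStarSubalgebra ψ ∧
      ψ g ≠ 0 := by
    by_contra hcon
    push Not at hcon
    have h1 := mul_eq_zero_of_isNormalExpectation hA' hg.1 hg.2.1 hcon hz hzp hE
    have h2 : g * z = g := by rw [hA.2.1 _ hg.1 _ hz, hzg]
    rw [h2] at h1
    exact hg0 h1
  refine normal_bound hA hψ hε hr hpave Fr hψg (fun l => (hv l).2.2) (fun l => rfl)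
    fun l a ha => ?_
  have h1 := hg.2.2 _ (mul_mem (mul_mem (star_mem (hv l).1) (hA.1 _ ha)) (hv l).1)
  have e1 : g * (star (v l) * a * v l) * g = star (v l) * a * v l := by
    rw [← mul_assoc, ← mul_assoc, hgv, mul_assoc, hvg]
  rwa [e1] at h1

/-- the uniform lower bound for a finite degree -/
theorem finite_lower (hA : SO.IsMASA A M) {z : H →L[ℂ] H} (hz : z ∈ A) (hzp : IsStarProjection z)
    {E : (H →L[ℂ] H) →ₗ[ℂ] (H →L[ℂ] H)} (hE : IsNormalExpectation M A.toStarSubalgebra z E)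
    {d : ℕ} (hd : SumAbelian M A.toStarSubalgebra z d)
    (hn : ∀ n < d, ¬ SumAbelian M A.toStarSubalgebra z n) {ε : ℝ} (hε : 0 < ε) :
    (⌈min (d : ℝ) (1 / ε ^ 2) / 3⌉₊ : ℕ∞) ≤ pavingNumber M A.toStarSubalgebra 1 ε := by
  refine le_pavingNumber fun r hr hpave => ?_
  have hr0 : (1 : ℝ) ≤ r := by exact_mod_cast hr
  rw [Nat.cast_le, Nat.ceil_le]
  by_cases h2 : d ≤ 1
  · have h3 : (d : ℝ) ≤ 1 := by exact_mod_cast h2
    linarith only [min_le_left (d : ℝ) (1 / ε ^ 2), h3, hr0]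
  have h3 : 2 ^ Nat.log 2 (d - 1) ≤ d - 1 := Nat.pow_log_le_self 2 (by omega)
  have h4 : d - 1 < 2 ^ (Nat.log 2 (d - 1)).succ := Nat.lt_pow_succ_log_self one_lt_two _
  have h5 := quad_fin hA hz hzp hE hd (hn _ (show 2 ^ Nat.log 2 (d - 1) < d by omega)) hε.le
    (show 0 < r by omega) fun x hx hxs => hpave x hx hxs (by simp)
  generalize Nat.log 2 (d - 1) = m at h4 h5
  have h6 : (d : ℝ) ≤ 2 * 2 ^ m := by
    have : d ≤ 2 * 2 ^ m := by rw [Nat.pow_succ] at h4; omega
    exact_mod_cast this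
  obtain ⟨t, ht⟩ : ∃ t, t = min (d : ℝ) (1 / ε ^ 2) := ⟨_, rfl⟩
  have t1 : t ≤ d := ht ▸ min_le_left _ _
  have t2 : t * ε ^ 2 ≤ 1 := by
    rw [← le_div_iff₀ (by positivity)]
    exact ht ▸ min_le_right _ _
  have t3 : t * (1 / 2 ^ m) ≤ 2 := by
    rw [mul_one_div, div_le_iff₀ (by positivity)]
    exact t1.trans h6
  have t0 : 0 ≤ t := ht ▸ le_min (Nat.cast_nonneg d) (by positivity)
  have h7 : t * (1 / (r : ℝ)) ≤ 3 := by
    have := mul_le_mul_of_nonneg_left h5 t0
    rw [mul_add] at this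
    linarith only [this, t2, t3]
  rw [mul_one_div, div_le_iff₀ (by linarith only [hr0])] at h7
  rw [← ht]
  linarith only [h7]

/-- `N` equivalent projections under orthogonal projections of `A` need `N` pieces -/
theorem exact_lower (hA : SO.IsMASA A M) {N : ℕ} (hU : Units M A 1 N) {ε : ℝ} (hε : 0 ≤ ε)
    (hN : ε * (N : ℝ) ^ 4 < 1) : (N : ℕ∞) ≤ pavingNumber M A.toStarSubalgebra 1 ε := by
  classical
  refine le_pavingNumber fun r hr hpave => ?_
  rw [Nat.cast_le]
  by_contra hcon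
  have hrN : (r : ℝ) + 1 ≤ N := by exact_mod_cast (show r + 1 ≤ N by omega)
  have hr0 : (1 : ℝ) ≤ r := by exact_mod_cast hr
  have hN0 : (0 : ℝ) < N := by linarith only [hrN, hr0]
  obtain ⟨g, e, v, -, hgp, hg0, -, he, ho, hv⟩ := hU
  obtain ⟨ζ, hgζ, hζ⟩ := exists_unit_of_proj hgp hg0
  have hsv : ∀ i, star (v i) * e i = star (v i) := by
    intro i
    have := congrArg star (hv i).2.1
    rwa [star_mul, (he i).2.1.isSelfAdjoint.star_eq] at this
  have hvo : ∀ p ∈ A, ∀ k l, k ≠ l → star (v k) * p * v l = 0 := by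
    intro p hp k l hkl
    have h1 : e k * p = p * e k := hA.2.1 _ (he k).1 _ hp
    calc star (v k) * p * v l = star (v k) * e k * p * (e l * v l) := by rw [hsv, (hv l).2.1]
      _ = star (v k) * (e k * p) * (e l * v l) := by simp only [mul_assoc]
      _ = star (v k) * p * (e k * e l) * v l := by rw [h1]; simp only [mul_assoc]
      _ = 0 := by rw [ho k l hkl, mul_zero, zero_mul]
  have hin : ∀ (i j : Fin N) (T : H →L[ℂ] H),
      ⟪v i ζ, T (v j ζ)⟫_ℂ = ⟪ζ, (star (v i) * T * v j) ζ⟫_ℂ := by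
    intro i j T
    have := star_apply_inner (star (v i)) ζ (T (v j ζ))
    rw [star_star] at this
    exact this
  have hvn : ∀ l, ‖v l ζ‖ ≤ 1 := fun l =>
    ((v l).le_of_opNorm_le (unit_norm hgp (hv l).2.2) ζ).trans (by rw [hζ, one_mul])
  obtain ⟨c, hc⟩ : ∃ c : ℝ, c = (N : ℝ) ^ 2 := ⟨_, rfl⟩
  have hc0 : 0 < c := by rw [hc]; positivity
  obtain ⟨x0, hx0⟩ : ∃ x0 : H →L[ℂ] H,
    x0 = ∑ i, ∑ j, if i = j then 0 else v i * star (v j) := ⟨_, rfl⟩
  have hx0M : x0 ∈ M := by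
    rw [hx0]
    refine sum_mem fun i _ => sum_mem fun j _ => ?_
    split_ifs
    · exact zero_mem _
    · exact mul_mem (hv i).1 (star_mem (hv j).1)
  have hx0s : star x0 = x0 := by
    rw [hx0, star_sum]
    simp only [star_sum]
    rw [Finset.sum_comm]
    refine Finset.sum_congr rfl fun i _ => Finset.sum_congr rfl fun j _ => ?_
    by_cases hij : i = j
    · rw [if_pos hij, if_pos hij.symm, star_zero]
    · rw [if_neg hij, if_neg (Ne.symm hij), star_mul, star_star]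
  have hx0n : ‖x0‖ ≤ c := by
    rw [hx0, hc]
    refine (norm_sum_le _ _).trans ((Finset.sum_le_sum (g := fun _ => (N : ℝ)) fun i _ => ?_).trans
      (by simp [sq]))
    refine (norm_sum_le _ _).trans ((Finset.sum_le_sum (g := fun _ => (1 : ℝ)) fun j _ => ?_).trans
      (by simp))
    split_ifs
    · simp
    · refine (norm_mul_le _ _).trans ?_
      rw [norm_star]
      exact mul_le_one₀ (unit_norm hgp (hv i).2.2) (norm_nonneg _) (unit_norm hgp (hv j).2.2)
  have hx0c : ∀ p ∈ A, ∀ i j, i ≠ j → star (v i) * (p * x0 * p) * v j =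
      (star (v i) * p * v i) * (star (v j) * p * v j) := by
    intro p hp i j hij
    have e1 : ∀ l m, star (v i) * (p * (v l * star (v m)) * p) * v j =
        (star (v i) * p * v l) * (star (v m) * p * v j) := fun l m => by simp only [mul_assoc]
    rw [hx0]
    simp only [Finset.mul_sum, Finset.sum_mul]
    rw [Finset.sum_eq_single i, Finset.sum_eq_single j, if_neg hij, e1]
    · intro m _ hm
      split_ifs
      · simp
      · rw [e1, hvo p hp m j hm, mul_zero]
    · exact fun h => absurd (Finset.mem_univ _) h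
    · intro l _ hl
      refine Finset.sum_eq_zero fun m _ => ?_
      split_ifs
      · simp
      · rw [e1, hvo p hp i l (Ne.symm hl), zero_mul]
    · exact fun h => absurd (Finset.mem_univ _) h
  obtain ⟨x, hx⟩ : ∃ x : H →L[ℂ] H, x = ((c⁻¹ : ℝ) : ℂ) • x0 := ⟨_, rfl⟩
  have hxn : ‖x‖ ≤ 1 := by
    rw [hx, norm_smul, Complex.norm_real, Real.norm_of_nonneg (by positivity),
      inv_mul_le_iff₀ hc0, mul_one]
    exact hx0n
  obtain ⟨δ, hδ⟩ : ∃ δ : ℝ, δ = (1 - ε * (N : ℝ) ^ 4) / (8 * (N : ℝ) ^ 4) := ⟨_, rfl⟩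
  have hδ0 : 0 < δ := by rw [hδ]; exact div_pos (by linarith only [hN]) (by positivity)
  have hδ1 : c * c * (ε + 4 * δ) < 1 := by
    have : c * c * (ε + 4 * δ) = (1 + ε * (N : ℝ) ^ 4) / 2 := by
      rw [hδ, hc]; field_simp; ring
    rw [this]
    linarith only [hN]
  obtain ⟨p, a, q, hp, hpo, hps, haA, -, -, han, -, -, hqp, hqF, hqS⟩ :=
    hpave x (by rw [hx]; exact M.toStarSubalgebra.smul_mem hx0M _)
      (by rw [IsSelfAdjoint, hx, star_smul, hx0s, Complex.star_def, Complex.conj_ofReal])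
      (by simp) (Finset.univ.image fun l => v l ζ) (fun ζ _ => rfl) δ hδ0
  obtain ⟨S, hS⟩ : ∃ S, S = ∑ i, p i * x * p i - a := ⟨_, rfl⟩
  rw [← hS] at hqS
  have hSn : ‖S‖ ≤ 2 := by
    rw [hS]
    calc _ ≤ ‖∑ i, p i * x * p i‖ + ‖a‖ := norm_sub_le _ _
      _ ≤ ‖x‖ + ‖x‖ := add_le_add (norm_pinch_le hp hpo hps _) han
      _ ≤ 2 := by linarith only [hxn]
  have h3 : ‖q * S * q‖ ≤ ε := hqS.trans (mul_le_of_le_one_right hε hxn)
  have hup : ∀ i j, ‖⟪v i ζ, S (v j ζ)⟫_ℂ‖ ≤ ε + 4 * δ := fun i j =>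
    inner_compress hqp hSn h3 (hvn i) (hvn j)
      (hqF _ (Finset.mem_image_of_mem _ (Finset.mem_univ i))).le
      (hqF _ (Finset.mem_image_of_mem _ (Finset.mem_univ j))).le
  obtain ⟨y, hy⟩ : ∃ y : Fin N → Fin r → H,
    y = fun i k => (star (v i) * p k * v i) ζ := ⟨_, rfl⟩
  have hoff : ∀ i j, i ≠ j → ∑ k, (⟪y i k, y j k⟫_ℂ).re ≤ c * (ε + 4 * δ) := by
    intro i j hij
    have h1 : ⟪v i ζ, S (v j ζ)⟫_ℂ = ((c⁻¹ : ℝ) : ℂ) * ∑ k, ⟪y i k, y j k⟫_ℂ := by
      rw [hin, hS, mul_sub, sub_mul, hvo a haA i j hij, sub_zero, Finset.mul_sum, Finset.sum_mul,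
        _root_.sum_apply, inner_sum, Finset.mul_sum]
      refine Finset.sum_congr rfl fun k _ => ?_
      rw [hx, mul_smul_comm, smul_mul_assoc, mul_smul_comm, smul_mul_assoc,
        hx0c _ (hp k).1 i j hij, ContinuousLinearMap.smul_apply, inner_smul_right, hy]
      congr 1
      have h5 : star (star (v i) * p k * v i) = star (v i) * p k * v i := by
        rw [star_mul, star_mul, star_star, (hp k).2.isSelfAdjoint.star_eq, mul_assoc]
      have h6 := star_apply_inner (star (v i) * p k * v i) ζ ((star (v j) * p k * v j) ζ)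
      rw [h5] at h6
      exact h6.symm
    have h2 := hup i j
    rw [h1, norm_mul, Complex.norm_real, Real.norm_of_nonneg (by positivity),
      inv_mul_le_iff₀ hc0] at h2
    rw [← Complex.re_sum]
    exact (Complex.re_le_norm _).trans h2
  have hdiag : ∀ i, ∑ k, (⟪y i k, y i k⟫_ℂ).re ≤ 1 := by
    intro i
    have h1 : ∀ k, (⟪y i k, y i k⟫_ℂ).re ≤ (⟪v i ζ, p k (v i ζ)⟫_ℂ).re := by
      intro k
      rw [proj_inner_self (hp k).2]
      have h2 : ‖y i k‖ ≤ ‖p k (v i ζ)‖ := by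
        rw [hy]
        refine ((star (v i)).le_of_opNorm_le (c := 1) ?_ (p k (v i ζ))).trans (by rw [one_mul])
        rw [norm_star]
        exact unit_norm hgp (hv i).2.2
      have h4 : (⟪y i k, y i k⟫_ℂ).re = ‖y i k‖ ^ 2 := inner_self_eq_norm_sq (𝕜 := ℂ) _
      rw [h4]
      exact pow_le_pow_left₀ (norm_nonneg _) h2 2
    refine (Finset.sum_le_sum fun k _ => h1 k).trans ?_
    rw [← Complex.re_sum, ← inner_sum, ← _root_.sum_apply, hps]
    have h4 : (⟪v i ζ, (1 : H →L[ℂ] H) (v i ζ)⟫_ℂ).re = ‖v i ζ‖ ^ 2 :=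
      inner_self_eq_norm_sq (𝕜 := ℂ) _
    rw [h4]
    exact pow_le_one₀ (norm_nonneg _) (hvn i)
  have hsum : ∑ k, ∑ i, y i k = (N : ℂ) • ζ := by
    rw [Finset.sum_comm]
    have h1 : ∀ i, ∑ k, y i k = ζ := by
      intro i
      rw [hy]
      simp only []
      rw [← _root_.sum_apply, ← Finset.sum_mul, ← Finset.mul_sum, hps, mul_one, (hv i).2.2, hgζ]
    simp only [h1, Finset.sum_const, Finset.card_univ, Fintype.card_fin, Nat.cast_smul_eq_nsmul]
  have hcs : (N : ℝ) ^ 2 ≤ r * ∑ k, ‖∑ i, y i k‖ ^ 2 := by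
    have h1 : (N : ℝ) ≤ ∑ k, ‖∑ i, y i k‖ := by
      refine le_trans ?_ (norm_sum_le _ _)
      rw [hsum, norm_smul, hζ, mul_one, Complex.norm_natCast]
    have h2 := sq_sum_le_card_mul_sum_sq (s := Finset.univ) (f := fun k => ‖∑ i, y i k‖)
    rw [Finset.card_univ, Fintype.card_fin] at h2
    exact (pow_le_pow_left₀ hN0.le h1 2).trans h2
  have hexp : ∑ k, ‖∑ i, y i k‖ ^ 2 = ∑ i, ∑ j, ∑ k, (⟪y i k, y j k⟫_ℂ).re := by
    have h1 : ∀ k, ‖∑ i, y i k‖ ^ 2 = ∑ i, ∑ j, (⟪y i k, y j k⟫_ℂ).re := by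
      intro k
      have h4 : (⟪∑ i, y i k, ∑ i, y i k⟫_ℂ).re = ‖∑ i, y i k‖ ^ 2 :=
        inner_self_eq_norm_sq (𝕜 := ℂ) _
      rw [← h4, sum_inner, Complex.re_sum]
      refine Finset.sum_congr rfl fun i _ => ?_
      rw [inner_sum, Complex.re_sum]
    simp only [h1]
    rw [Finset.sum_comm]
    exact Finset.sum_congr rfl fun i _ => Finset.sum_comm
  have hκ : 0 ≤ c * (ε + 4 * δ) := by positivity
  have htot : ∑ i, ∑ j, ∑ k, (⟪y i k, y j k⟫_ℂ).re ≤ N + c * (c * (ε + 4 * δ)) := by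
    have h1 : ∀ i j, ∑ k, (⟪y i k, y j k⟫_ℂ).re ≤ (if i = j then 1 else 0) + c * (ε + 4 * δ) := by
      intro i j
      split_ifs with hij
      · subst hij
        linarith only [hdiag i, hκ]
      · linarith only [hoff i j hij]
    refine (Finset.sum_le_sum fun i _ => Finset.sum_le_sum fun j _ => h1 i j).trans (le_of_eq ?_)
    simp only [Finset.sum_add_distrib, Finset.sum_ite_eq, Finset.mem_univ, if_true,
      Finset.sum_const, Finset.card_univ, Fintype.card_fin, nsmul_eq_mul, mul_one]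
    rw [hc]
    ring
  rw [hexp] at hcs
  have h8 : (N : ℝ) ^ 2 ≤ r * (N + 1) :=
    hcs.trans (mul_le_mul_of_nonneg_left (by nlinarith only [htot, hδ1]) (by positivity))
  nlinarith only [h8, hrN, hN0]

/-- the exact value of a finite degree is needed for small `ε` -/
theorem exact_of_sum (hA : SO.IsMASA A M) {z : H →L[ℂ] H} (hz : z ∈ A) (hzp : IsStarProjection z)
    {d : ℕ} (hd : SumAbelian M A.toStarSubalgebra z (d + 1))
    (hn : ¬ SumAbelian M A.toStarSubalgebra z d) : Units M A 1 (d + 1) := by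
  obtain ⟨g, e, v, hg, hg0, -, he, ho, heg, hv⟩ := exists_frame hA hz hzp hd hn
  have hgg : g * g = g := hg.2.1.isIdempotentElem.eq
  refine ⟨g, Fin.cons g e, Fin.cons g v, hA.1 _ hg.1, hg.2.1, hg0, one_mul _, fun i => ?_,
    fun i j hij => ?_, fun i => ?_⟩
  · refine Fin.cases ?_ (fun i => ?_) i
    · exact ⟨hg.1, hg.2.1, one_mul _⟩
    · exact ⟨(he i).1.1, (he i).1.2.1, one_mul _⟩
  · revert hij
    refine Fin.cases ?_ (fun i => ?_) i <;> refine Fin.cases ?_ (fun j => ?_) j <;> intro hij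
    · exact absurd rfl hij
    · exact (hA.2.1 _ hg.1 _ (he j).1.1).trans (heg j)
    · exact heg i
    · exact ho i j fun e => hij (by rw [e])
  · refine Fin.cases ?_ (fun i => ?_) i
    · exact ⟨hA.1 _ hg.1, hgg, by
        change star g * g = g
        rw [hg.2.1.isSelfAdjoint.star_eq, hgg]⟩
    · exact hv i

end Vale.Agent.N078H
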