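import Vale.Agent.N078H.Defs
import Vale.Agent.N078H.Fin
import Vale.Agent.P078L.Br

/-!
The growth of the paving number in terms of the degree of the expected part.
-/

set_option linter.all false

namespace Vale.Agent.N078H

open Filter Topology

universe u

variable {H : Type u} [NormedAddCommGroup H] [InnerProductSpace ℂ H] [CompleteSpace H]
  {M : VonNeumannAlgebra H} {A : StarSubalgebra ℂ (H →L[ℂ] H)}

theorem comm_iff {B : StarSubalgebra ℂ (H →L[ℂ] H)} :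
    IsMulCommutative B ↔ ∀ x ∈ B, ∀ y ∈ B, x * y = y * x :=
  ⟨fun h x hx y hy => congrArg Subtype.val (h.is_comm.comm (⟨x, hx⟩ : B) ⟨y, hy⟩),
    fun h => ⟨⟨fun x y => Subtype.ext (h x x.2 y y.2)⟩⟩⟩

theorem IsMASA.max (hA : IsMASA M A) :
    Maximal (P078L.AbelianIn M.toStarSubalgebra) A.toNonUnitalStarSubalgebra := by
  refine ⟨⟨fun x hx => hA.prop.1 hx, comm_iff.1 hA.prop.2⟩, fun B hB hAB => ?_⟩
  exact hA.le_of_ge (y := B.toStarSubalgebra (hAB (one_mem A)))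
    ⟨fun x hx => hB.1 x hx, comm_iff.2 hB.2⟩ hAB

/-- The maximal abelian subalgebra as a von Neumann algebra. -/
noncomputable def IsMASA.vn (hA : IsMASA M A) : VonNeumannAlgebra H :=
  P078L.vn M.centralizer_centralizer hA.max

theorem IsMASA.so (hA : IsMASA M A) : P078.SO.IsMASA hA.vn M :=
  ⟨hA.max.prop.1, hA.max.prop.2, fun _ hx hc => P078L.mem_of_comm hA.max hx hc⟩

theorem isMASA_of_so {A : VonNeumannAlgebra H} (hA : P078.SO.IsMASA A M) :
    IsMASA M A.toStarSubalgebra :=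
  ⟨⟨fun x hx => hA.1 x hx, comm_iff.2 hA.2.1⟩, fun B hB hAB x hx =>
    hA.2.2 x (hB.1 hx) fun a ha => comm_iff.1 hB.2 a (hAB ha) x hx⟩

theorem IsMASA.exists_vn (hA : IsMASA M A) :
    ∃ A' : VonNeumannAlgebra H, A'.toStarSubalgebra = A ∧ P078.SO.IsMASA A' M :=
  ⟨hA.vn, SetLike.ext fun _ => Iff.rfl, hA.so⟩

theorem pav_iff {x : H →L[ℂ] H} {ε : ℝ} {r : ℕ} :
    SOPavable M A x ε r ↔ P078.SOPavable M A 1 x ε r := by
  constructor
  · intro h F _ δ hδ
    obtain ⟨p, a, q, h1, h2, h3, h4, h5, h6, h7, h8, h9⟩ := h F δ hδ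
    exact ⟨p, a, q, fun i => ⟨(h2 i).1, h1.idem i, (h2 i).2⟩, fun i j hij => h1.ortho hij,
      h1.complete, h3, one_mul _, h4, h5, h6, one_mul _, h7, h8, h9⟩
  · intro h F δ hδ
    obtain ⟨p, a, q, h1, h2, h3, h4, -, h5, h6, h7, -, h8, h9, h10⟩ := h F (fun _ _ => rfl) δ hδ
    exact ⟨p, a, q, ⟨⟨fun i => (h1 i).2.isIdempotentElem, fun i j hij => h2 i j hij⟩, h3⟩,
      fun i => ⟨(h1 i).1, (h1 i).2.isSelfAdjoint⟩, h4, h5, h6, h7, h8, h9, h10⟩

theorem num_eq (ε : ℝ) : pavingNumber M A ε = P078.pavingNumber M A 1 ε := by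
  rw [pavingNumber, sInf_image, P078.pavingNumber]
  simp only [Set.mem_setOf_eq, pav_iff, one_mul, mul_one, true_implies]

section vn

variable {A : VonNeumannAlgebra H}

theorem expected_iff (hA : P078.SO.IsMASA A M) {p : H →L[ℂ] H} :
    IsExpected M A.toStarSubalgebra p ↔ p ∈ A ∧ IsStarProjection p ∧
      ∃ E, P078.IsNormalExpectation M A.toStarSubalgebra p E := by
  refine and_congr_right fun hp => and_congr_right fun hpp => ⟨?_, ?_⟩
  · rintro ⟨E, h1, h2, h3⟩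
    refine ⟨E, fun x hx hpx => ⟨(h2 x hx).1, ?_⟩, fun a ha hpa => ?_,
      fun x hx _ => (h2 x hx).2.1, fun a ha b hb x hx _ => (h2 x hx).2.2 a ha b hb,
      fun D hne hdir hD => h3 D hne hdir fun x hx => (hD x hx).1⟩
    · have h4 := (h2 x hx).2.2 p hp 1 (one_mem _)
      have h5 : p * x = x := by
        rw [← hpx, ← mul_assoc, ← mul_assoc, hpp.isIdempotentElem.eq]
      rw [mul_one, mul_one, h5] at h4
      exact h4.symm
    · have h4 := (h2 1 (one_mem M)).2.2 a ha 1 (one_mem _)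
      rw [mul_one, mul_one, mul_one, h1, hA.2.1 a ha p hp, hpa] at h4
      exact h4
  · rintro ⟨E, hE⟩
    have hpp' : p * p = p := hpp.isIdempotentElem.eq
    have hc : ∀ x, p * (p * x * p) * p = p * x * p := fun x => P078.corner_corner hpp' x
    have hm : ∀ x ∈ M, p * x * p ∈ M := fun x hx =>
      mul_mem (mul_mem (hA.1 p hp) hx) (hA.1 p hp)
    refine ⟨E ∘ₗ LinearMap.mulRight ℂ p ∘ₗ LinearMap.mulLeft ℂ p, ?_, fun x hx =>
      ⟨(hE.mem _ (hm x hx) (hc x)).1, fun h0 =>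
        hE.nonneg _ (hm x hx) (hc x) (P078.conj_nonneg' hpp h0), fun a ha b hb => ?_⟩,
      fun D hne hdir hD y hy => ?_⟩
    · change E (p * 1 * p) = p
      rw [mul_one, hpp']
      exact hE.idem p hp hpp'
    · change E (p * (a * x * b) * p) = a * E (p * x * p) * b
      rw [← hE.bimod a ha b hb _ (hm x hx) (hc x)]
      congr 1
      have h1 : p * a = a * p := hA.2.1 p hp a ha
      have h2 : b * p = p * b := hA.2.1 b hb p hp
      calc p * (a * x * b) * p = p * a * x * (b * p) := by simp only [mul_assoc]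
        _ = a * (p * x * p) * b := by rw [h1, h2]; simp only [mul_assoc]
    · have h1 := hE.normal _ (hne.image fun d => p * d * p)
        (P078.directedOn_image_of_mono hdir fun x _ y _ h => P078.conj_mono' hpp h)
        (by rintro _ ⟨x, hx, rfl⟩; exact ⟨hm x (hD hx), hc x⟩) _ (P078.isLUB_conj hpp hne hdir hy)
      rw [Set.image_image] at h1
      exact h1

theorem sum_iff (hA : P078.SO.IsMASA A M) {p : H →L[ℂ] H} {N : ℕ} :
    IsAbelianSum M A.toStarSubalgebra p N ↔ P078.SumAbelian M A.toStarSubalgebra p N := by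
  refine exists_congr fun f => ⟨?_, ?_⟩
  · rintro ⟨h1, h2, h3⟩
    refine ⟨fun i => ⟨(h3 i).1, ⟨h1.idem i, (h3 i).2.1⟩, fun x hx => ?_⟩,
      fun i j hij => h1.ortho hij, h2⟩
    have hf := hA.1 _ (h3 i).1
    refine hA.2.2 _ (mul_mem (mul_mem hf hx) hf) fun a ha => ?_
    have h4 := ((h3 i).2.2 a (hA.1 a ha) x hx).eq
    have h5 : f i * a = a * f i := hA.2.1 _ (h3 i).1 a ha
    have h6 : f i * f i = f i := (h1.idem i).eq
    have h7 : f i * a * f i = a * f i := by rw [h5, mul_assoc, h6]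
    rw [h7] at h4
    calc a * (f i * x * f i) = a * f i * (f i * x * f i) := by
          rw [mul_assoc a, ← mul_assoc (f i), ← mul_assoc (f i), h6]
      _ = f i * x * f i * (a * f i) := h4
      _ = f i * x * f i * a := by
          rw [← h5, mul_assoc (f i * x), ← mul_assoc (f i) (f i), h6, ← mul_assoc]
  · rintro ⟨h1, h2, h3⟩
    exact ⟨⟨fun i => (h1 i).2.1.isIdempotentElem, fun i j hij => h2 i j hij⟩, h3, fun i =>
      ⟨(h1 i).1, (h1 i).2.1.isSelfAdjoint, fun x hx y hy =>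
        hA.2.1 _ ((h1 i).2.2 x hx) _ ((h1 i).2.2 y hy)⟩⟩

/-- the expected part and its relation with the invariants -/
theorem exists_part (hA : P078.SO.IsMASA A M) : ∃ z ∈ A, IsStarProjection z ∧
    (∃ E, P078.IsNormalExpectation M A.toStarSubalgebra z E) ∧
    P078.SmallProp M A.toStarSubalgebra (1 - z) ∧
    (∀ f, P078.AbProj M A f → z * f = f) ∧
    (IsExpected M A.toStarSubalgebra 1 ↔ z = 1) ∧
    (∀ N : ℕ, degree M A.toStarSubalgebra ≤ N ↔ P078.SumAbelian M A.toStarSubalgebra z N) := by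
  have hA' := P078.SO.IsMASA.toStar hA
  obtain ⟨z, hzA, hzp, hE, h0, hmax⟩ := P078.exists_largest hA'
  have hz : IsExpected M A.toStarSubalgebra z := (expected_iff hA).2 ⟨hzA, hzp, hE⟩
  refine ⟨z, hzA, hzp, hE, P078.smallProp_of_null hA' (sub_mem (one_mem A) hzA) hzp.one_sub h0,
    fun f hf => abProj_le hA hf hzp h0, ⟨fun h => ?_, fun h => h ▸ hz⟩, fun N => ⟨fun h => ?_, fun h => ?_⟩⟩
  · have := hmax 1 (one_mem _) (IsStarProjection.one _) ((expected_iff hA).1 h).2.2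
    rwa [mul_one] at this
  · by_contra hc
    have h1 : ((N + 1 : ℕ) : ℕ∞) ≤ degree M A.toStarSubalgebra := by
      refine le_sInf ?_
      rintro _ ⟨n, hn, rfl⟩
      rw [Nat.cast_le]
      by_contra hlt
      exact hc (sum_mono ((sum_iff hA).1 (hn z hz)) (by omega))
    have h2 := h1.trans h
    rw [Nat.cast_le] at h2
    omega
  · refine sInf_le ⟨N, fun p hp => ?_, rfl⟩
    obtain ⟨h1, h2, h3⟩ := (expected_iff hA).1 hp
    exact (sum_iff hA).2 (sum_of_le hA h h1 h2 (hmax p h1 h2 h3))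

end vn

/-- the quadratic lower bound for all types -/
def QuadAll (H : Type u) [NormedAddCommGroup H] [InnerProductSpace ℂ H] [CompleteSpace H] : Prop :=
  ∀ {M A : VonNeumannAlgebra H}, P078.SO.IsMASA A M → ∀ {z : H →L[ℂ] H}, z ∈ A →
    IsStarProjection z → ∀ {E : (H →L[ℂ] H) →ₗ[ℂ] (H →L[ℂ] H)},
    P078.IsNormalExpectation M A.toStarSubalgebra z E →
    (∀ N, ¬ P078.SumAbelian M A.toStarSubalgebra z N) → ∀ {ε : ℝ}, 0 < ε →
    (⌈1 / ε ^ 2⌉₊ : ℕ∞) ≤ P078.pavingNumber M A.toStarSubalgebra 1 ε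

theorem upper (hA : IsMASA M A) {ε : ℝ} (h0 : 0 < ε) (h1 : ε < 1) :
    ∃ n : ℕ, pavingNumber M A ε = n ∧ (n : ℝ) ≤ 1200003 / ε ^ 2 := by
  obtain ⟨A, rfl, hB⟩ := hA.exists_vn
  replace hA := hB
  have h2 := P078.WG.joint_upper_lin hA (le_refl 1) h0 h1
  rw [P078.WG.joint_one, P078.SO.pavingNumber_eq, ← num_eq] at h2
  obtain ⟨n, hn⟩ := ENat.ne_top_iff_exists.1 (ne_top_of_le_ne_top (ENat.coe_ne_top _) h2)
  refine ⟨n, hn.symm, ?_⟩
  rw [← hn, Nat.cast_le] at h2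
  have h5 : (0 : ℝ) < ε ^ 2 := by positivity
  have h6 : ε ^ 2 ≤ 1 := by nlinarith
  have h7 : (1 : ℝ) ≤ 1 / ε ^ 2 := by rw [le_div_iff₀ h5]; linarith
  have h8 := (Nat.ceil_lt_add_one (show (0 : ℝ) ≤ 1200002 * ((1 : ℕ) : ℝ) / ε ^ 2 by
    positivity)).le
  have h9 : (n : ℝ) ≤ (⌈1200002 * ((1 : ℕ) : ℝ) / ε ^ 2⌉₊ : ℕ) := by exact_mod_cast h2
  have h10 : (1200003 : ℝ) / ε ^ 2 = 1200002 * ((1 : ℕ) : ℝ) / ε ^ 2 + 1 / ε ^ 2 := by
    push_cast; ring
  linarith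

theorem infinite_degree (hQ : QuadAll H) (hA : IsMASA M A) (hd : degree M A = ⊤) {ε : ℝ}
    (h0 : 0 < ε) : (⌈1 / ε ^ 2⌉₊ : ℕ∞) ≤ pavingNumber M A ε := by
  obtain ⟨A, rfl, hB⟩ := hA.exists_vn
  replace hA := hB
  obtain ⟨z, hzA, hzp, ⟨E, hE⟩, -, -, -, h⟩ := exists_part hA
  rw [num_eq]
  refine hQ hA hzA hzp hE (fun N hN => ?_) h0
  have := (h N).2 hN
  rw [hd] at this
  exact ENat.coe_ne_top N (top_le_iff.1 this)

theorem finite_degree (hA : IsMASA M A) {d : ℕ} (hd : degree M A = d) {ε : ℝ} (h0 : 0 < ε) :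
    (⌈min (d : ℝ) (1 / ε ^ 2) / 3⌉₊ : ℕ∞) ≤ pavingNumber M A ε ∧
    (ε * (d : ℝ) ^ 4 < 1 → (d : ℕ∞) ≤ pavingNumber M A ε) ∧
    (IsExpected M A 1 → pavingNumber M A ε ≤ max d 1) ∧
    (¬ IsExpected M A 1 → (⌈1 / ε⌉₊ : ℕ∞) ≤ pavingNumber M A ε ∧
      pavingNumber M A ε ≤ (d + ⌊1 / ε⌋₊ + 1 : ℕ)) := by
  obtain ⟨A, rfl, hB⟩ := hA.exists_vn
  replace hA := hB
  obtain ⟨z, hzA, hzp, ⟨E, hE⟩, hS, hab, h1, h⟩ := exists_part hA
  have hz : P078.SumAbelian M A.toStarSubalgebra z d := (h d).1 hd.le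
  have hn : ∀ n < d, ¬ P078.SumAbelian M A.toStarSubalgebra z n := by
    intro n hn hc
    have := (h n).2 hc
    rw [hd, Nat.cast_le] at this
    omega
  rw [num_eq]
  refine ⟨finite_lower hA hzA hzp hE hz hn h0, fun hε => ?_, fun he => ?_, fun he => ⟨?_, ?_⟩⟩
  · cases d with
    | zero => exact zero_le
    | succ d => exact exact_lower hA (exact_of_sum hA hzA hzp hz (hn d (by omega))) h0.le hε
  · rw [h1.1 he] at hz
    have := P078.WG.joint_le_of_one hA (le_max_right d 1) (sum_mono hz (le_max_left d 1)) h0 1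
    rw [P078.WG.joint_one, P078.SO.pavingNumber_eq] at this
    exact_mod_cast this
  · refine P078.linear_general hA (fun N hN => he (h1.2 ?_)) h0
    obtain ⟨f, f1, -, f3⟩ := hN
    rw [← mul_one z, ← f3, Finset.mul_sum]
    exact Finset.sum_congr rfl fun i _ => hab _ (f1 i)
  · have := P078.joint_le_of_small hA hzA hzp hS hz h0 1
    rw [P078.WG.joint_one, P078.SO.pavingNumber_eq] at this
    exact this

theorem one_le (ε : ℝ) : 1 ≤ pavingNumber M A ε := by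
  refine le_sInf ?_
  rintro _ ⟨n, hn, rfl⟩
  exact_mod_cast hn.1

theorem trichotomy (hQ : QuadAll H) (hA : IsMASA M A) :
    (∃ N : ℕ, ∀ᶠ ε in 𝓝[>] (0 : ℝ), pavingNumber M A ε = N) ∨
    (∃ N : ℕ, ∀ ε : ℝ, 0 < ε →
      (⌈1 / ε⌉₊ : ℕ∞) ≤ pavingNumber M A ε ∧ pavingNumber M A ε ≤ (⌈1 / ε⌉₊ + N : ℕ)) ∨
    ∀ ε : ℝ, 0 < ε → (⌈1 / ε ^ 2⌉₊ : ℕ∞) ≤ pavingNumber M A ε := by
  by_cases hd : degree M A = ⊤
  · exact Or.inr (Or.inr fun ε h0 => infinite_degree hQ hA hd h0)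
  obtain ⟨d, hd⟩ := ENat.ne_top_iff_exists.1 hd
  by_cases he : IsExpected M A 1
  · refine Or.inl ⟨max d 1, ?_⟩
    have h1 : ∀ᶠ ε in 𝓝[>] (0 : ℝ), ε * (d : ℝ) ^ 4 < 1 := by
      refine Eventually.filter_mono nhdsWithin_le_nhds ?_
      have : ContinuousAt (fun ε : ℝ => ε * (d : ℝ) ^ 4) 0 := by fun_prop
      exact this.eventually_lt continuousAt_const (by simp)
    filter_upwards [h1, self_mem_nhdsWithin] with ε h2 h3
    obtain ⟨-, h4, h5, -⟩ := finite_degree hA hd.symm (ε := ε) h3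
    refine le_antisymm (by exact_mod_cast h5 he) ?_
    push_cast
    exact max_le (h4 h2) (one_le ε)
  · refine Or.inr (Or.inl ⟨d + 1, fun ε h0 => ?_⟩)
    obtain ⟨h4, h5⟩ := (finite_degree hA hd.symm h0).2.2.2 he
    refine ⟨h4, h5.trans ?_⟩
    rw [Nat.cast_le]
    have := Nat.floor_le_ceil (1 / ε)
    omega

end Vale.Agent.N078H
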